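import Vale.Agent.P032X.Cert.XP.B1.R0T
import Vale.Agent.P032X.Cert.XP.B1b.R0T
import Vale.Agent.P032X.Cert.X3.A.R0T
import Vale.Agent.P032X.Cert.X3.A2.R0T
import Vale.Agent.P032X.Cert.X3.A3.R0T

/-!
# P032: the tree of the patterns of the block X3
-/

namespace Vale.Agent.P032X.Cert.X3

open Vale.Agent.P032.H61

/-- the tree of the patterns -/
def t1 : PTr := .node Vale.Agent.P032X.Cert.XP.B1.tr0 (.node Vale.Agent.P032X.Cert.XP.B1b.tr0
  (.node Vale.Agent.P032X.Cert.X3.A.tr0 (.node Vale.Agent.P032X.Cert.X3.A2.tr0 Vale.Agent.P032X.Cert.X3.A3.tr0)))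

end Vale.Agent.P032X.Cert.X3
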