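import Vale.Agent.P032X.Cert.XP.B1.R0T
import Vale.Agent.P032X.Cert.XP.B1b.R0T
import Vale.Agent.P032X.Cert.X3.A.R0T
import Vale.Agent.P032X.Cert.X3.A2.R0T
import Vale.Agent.P032X.Cert.X3.A3.R0T
import Vale.Agent.P032X.Cert.X3.W1.WT
import Vale.Agent.P032X.Cert.X3.W2.WT

/-!
# P032: the tree of the patterns and words of the block X3
-/

namespace Vale.Agent.P032X.Cert.X3

open Vale.Agent.P032.H61

/-- the tree of the patterns and words -/
def tm : PTr := .node Vale.Agent.P032X.Cert.XP.B1.tr0 (.node Vale.Agent.P032X.Cert.XP.B1b.tr0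
  (.node Vale.Agent.P032X.Cert.X3.A.tr0 (.node Vale.Agent.P032X.Cert.X3.A2.tr0 (.node Vale.Agent.P032X.Cert.X3.A3.tr0
    (.node Vale.Agent.P032X.Cert.X3.W1.tW Vale.Agent.P032X.Cert.X3.W2.tW)))))

end Vale.Agent.P032X.Cert.X3
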