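import Vale.Agent.P032X.H286.B73
import Vale.Agent.P032X.Cert.XP.B1.R0
import Vale.Agent.P032X.Cert.XP.B1b.R0
import Vale.Agent.P032X.Cert.X3.A.R0
import Vale.Agent.P032X.Cert.X3.A2.R0
import Vale.Agent.P032X.Cert.X3.A3.R0
import Vale.Agent.P032X.Cert.X3.T1
import Vale.Agent.P032X.Cert.X3.TM
import Vale.Agent.P032X.Cert.X3.M.M
import Vale.Agent.P032X.Cert.X3.W1.WH000
import Vale.Agent.P032X.Cert.X3.W1.WH001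
import Vale.Agent.P032X.Cert.X3.W1.WH002
import Vale.Agent.P032X.Cert.X3.W1.WH003
import Vale.Agent.P032X.Cert.X3.W1.WH004
import Vale.Agent.P032X.Cert.X3.W1.WH005
import Vale.Agent.P032X.Cert.X3.W1.WH006
import Vale.Agent.P032X.Cert.X3.W1.WH007
import Vale.Agent.P032X.Cert.X3.W1.WH008
import Vale.Agent.P032X.Cert.X3.W1.WH009
import Vale.Agent.P032X.Cert.X3.W2.WH000
import Vale.Agent.P032X.Cert.X3.W2.WH001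
import Vale.Agent.P032X.Cert.X3.W2.WH002
import Vale.Agent.P032X.Cert.X3.W2.WH003
import Vale.Agent.P032X.Cert.X3.W2.WH004

/-!
# P032: the block (5, 4) with the condition `Q3`: the end
-/

namespace Vale.Agent.P032X.Cert.X3

open Vale.Agent.P032.H820.K Vale.Agent.P032.H357.MK Vale.Agent.P032.H286.E Vale.Agent.P032.H61 Vale.Agent.P032.H61.TF Vale.Agent.P032.BlkE Vale.Agent.P032.BlkS Vale.Agent.P032.H357 Vale.Agent.P032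

/-- the patterns -/
theorem d1 : Fam.DQ Fam.Q3 t1 :=
  ⟨dq3_of_2 Vale.Agent.P032X.Cert.XP.B1.d0, ⟨dq3_of_2 Vale.Agent.P032X.Cert.XP.B1b.d0, ⟨A.d0, ⟨A2.d0, A3.d0⟩⟩⟩⟩

/-- the words -/
theorem dw1 : Fam.DQ Fam.Q3 W1.tW :=
  ⟨⟨⟨⟨dqw_of Fam.inv_q3 d1 f3q0 W1.WH000.ch W1.WH000.all, dqw_of Fam.inv_q3 d1 f3q0 W1.WH001.ch W1.WH001.all⟩, dqw_of Fam.inv_q3 d1 f3q0 W1.WH002.ch W1.WH002.all⟩, ⟨dqw_of Fam.inv_q3 d1 f3q0 W1.WH003.ch W1.WH003.all, dqw_of Fam.inv_q3 d1 f3q0 W1.WH004.ch W1.WH004.all⟩⟩, ⟨⟨⟨dqw_of Fam.inv_q3 d1 f3q0 W1.WH005.ch W1.WH005.all, dqw_of Fam.inv_q3 d1 f3q0 W1.WH006.ch W1.WH006.all⟩, dqw_of Fam.inv_q3 d1 f3q0 W1.WH007.ch W1.WH007.all⟩, ⟨dqw_of Fam.inv_q3 d1 f3q0 W1.WH008.ch W1.WH008.all, dqw_of Fam.inv_q3 d1 f3q0 W1.WH009.ch W1.WH009.all⟩⟩⟩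

theorem dw2 : Fam.DQ Fam.Q3 W2.tW :=
  ⟨⟨⟨dqw_of Fam.inv_q3 d1 f3q0 W2.WH000.ch W2.WH000.all, dqw_of Fam.inv_q3 d1 f3q0 W2.WH001.ch W2.WH001.all⟩, dqw_of Fam.inv_q3 d1 f3q0 W2.WH002.ch W2.WH002.all⟩, ⟨dqw_of Fam.inv_q3 d1 f3q0 W2.WH003.ch W2.WH003.all, dqw_of Fam.inv_q3 d1 f3q0 W2.WH004.ch W2.WH004.all⟩⟩

/-- patterns and words -/
theorem dm : Fam.DQ Fam.Q3 tm :=
  ⟨dq3_of_2 Vale.Agent.P032X.Cert.XP.B1.d0, ⟨dq3_of_2 Vale.Agent.P032X.Cert.XP.B1b.d0,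
    ⟨A.d0, ⟨A2.d0, ⟨A3.d0, ⟨dw1, dw2⟩⟩⟩⟩⟩⟩

/-- **the block (5, 4) with the condition `Q3`** -/
theorem xp3 : Dead (kap TF.TC) (CW Fam.Q3 5 4 73 TF.TC) [] := x54_of' Fam.inv_q3 dm f3w0 M.qM

end Vale.Agent.P032X.Cert.X3
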